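import Vale.Agent.P144E.An4b.Lev

/-!
The boundary estimates near reentrant corners.
-/

namespace Vale.Agent.P144Z

open Finset

namespace A4b

theorem loss_pos {L n : ℕ} {c c₃ s ε : ℝ} (hL : 1 ≤ L) (h1 : 3 * c₃ ^ 2 ≤ ε * (L : ℝ) ^ 2)
    (h2 : 243 * s ≤ ε * L) (h3 : 243 * (n * c ^ 2) ≤ ε * L) :
    bdlW L 8 c (c₃ / (L : ℝ) ^ 2) s n ≤ ε := by
  have L0 : (0 : ℝ) < L := by exact_mod_cast hL
  have a1 : (L : ℝ) ^ 2 * (c₃ / (L : ℝ) ^ 2) ^ 2 ≤ ε / 3 := by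
    rw [show (L : ℝ) ^ 2 * (c₃ / (L : ℝ) ^ 2) ^ 2 = c₃ ^ 2 / (L : ℝ) ^ 2 by field_simp,
      div_le_iff₀ (by positivity)]
    linarith
  have a2 : (((8 : ℕ) : ℝ) + 1) ^ 2 * (s + n * c ^ 2) / L ≤ 2 * ε / 3 := by
    rw [div_le_iff₀ L0]
    push_cast
    linarith
  unfold bdlW
  linarith

theorem loss_zero {L : ℕ} {c : ℝ} (hL : 1 ≤ L) (h : 100 * c ^ 2 ≤ L) :
    bdlW L 8 c (1 / 8) 0 (L ^ 2) ≤ (L : ℝ) ^ 2 := by
  have L0 : (0 : ℝ) < L := by exact_mod_cast hL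
  have a2 : (((8 : ℕ) : ℝ) + 1) ^ 2 * (0 + ((L ^ 2 : ℕ) : ℝ) * c ^ 2) / L ≤
      81 / 100 * (L : ℝ) ^ 2 := by
    rw [div_le_iff₀ L0]
    push_cast
    nlinarith [mul_le_mul_of_nonneg_left h (sq_nonneg (L : ℝ))]
  unfold bdlW
  nlinarith [sq_nonneg (L : ℝ)]

theorem exists_K {a L : ℕ} (ha : 1 ≤ a) (h : 2 * a ≤ L) :
    ∃ K, 2 * (a * 2 ^ K) ≤ L ∧ L ≤ 4 * (a * 2 ^ K) ∧ 2 ^ K ≤ L := by
  have p : 0 < 2 * a := by omega
  have b1 := (Nat.le_div_iff_mul_le p).1 (Nat.pow_log_le_self 2 (Nat.div_pos h p).ne')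
  have b2 := (Nat.div_lt_iff_lt_mul p).1 (Nat.lt_pow_succ_log_self one_lt_two (L / _))
  rw [Nat.succ_eq_add_one, pow_succ] at b2
  generalize Nat.log 2 (L / (2 * a)) = K at b1 b2
  exact ⟨K, (le_of_eq (by ring)).trans b1, b2.le.trans (le_of_eq (by ring)),
    (Nat.le_mul_of_pos_right _ p).trans b1⟩

theorem consts {c₁ c₂ c₃ β ε : ℝ} (hc₁ : 1 ≤ c₁) (hc₂ : 1 ≤ c₂) (hc₃ : 1 ≤ c₃) (hβ : 0 < β)
    (hβ' : β ≤ 1) (hε : 0 < ε) (A : ℕ) : ∃ L₀ : ℕ, ∀ L ≥ L₀, ∀ K : ℕ, 2 ^ K ≤ L → ∀ c : ℝ,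
      c = 2 * c₁ * c₂ * √(L / (L : ℝ) ^ β) → 1 ≤ c ∧ c ^ 2 ≤ ε * L ∧ 100 * c ^ 2 ≤ L ∧
        243 * ((A * (K + 1) : ℕ) * c ^ 2) ≤ ε * L ∧ 8 * (c₃ / (L : ℝ) ^ 2) ≤ 1 ∧
        3 * c₃ ^ 2 ≤ ε * (L : ℝ) ^ 2 := by
  obtain ⟨L₁, hL₁⟩ := num (C := (2 * c₁ * c₂) ^ 2 * (243 * A + 1) / ε) (by positivity) hβ
  obtain ⟨L₂, hL₂⟩ := num (C := (2 * c₁ * c₂) ^ 2 * 100) (by positivity) hβ
  obtain ⟨L₃, hL₃⟩ := num (C := 8 * c₃ + 3 * c₃ ^ 2 / ε) (by positivity) one_pos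
  refine ⟨L₁ + L₂ + L₃ + 1, fun L hL K hK c hc => ?_⟩
  have L1 : 1 ≤ L := by omega
  have L1' : (1 : ℝ) ≤ L := by exact_mod_cast L1
  have T0 : 0 < (L : ℝ) ^ β := by positivity
  have c2 : c ^ 2 = (2 * c₁ * c₂) ^ 2 * L / (L : ℝ) ^ β := by
    rw [hc, mul_pow, Real.sq_sqrt (by positivity), mul_div_assoc]
  have c1 : 1 ≤ c := by
    rw [hc]
    refine one_le_mul_of_one_le_of_one_le (by nlinarith) (Real.one_le_sqrt.2 ?_)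
    exact (one_le_div T0).2 (Real.rpow_le_self_of_one_le L1' hβ')
  have c3 : (243 * A + 1) * (K + 1) * c ^ 2 ≤ ε * L := by
    have := hL₁ L (by omega) K hK
    rw [div_mul_eq_mul_div, div_le_iff₀ hε] at this
    rw [c2, mul_div_assoc', div_le_iff₀ T0]
    linarith [mul_le_mul_of_nonneg_right this (zero_le_one.trans L1')]
  have c4 : 100 * c ^ 2 ≤ L := by
    have := hL₂ L (by omega) 0 L1
    rw [c2, mul_div_assoc', div_le_iff₀ T0]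
    push_cast at this
    linarith [mul_le_mul_of_nonneg_right this (zero_le_one.trans L1')]
  have c5 : 8 * c₃ + 3 * c₃ ^ 2 / ε ≤ (L : ℝ) ^ 2 := by
    have := hL₃ L (by omega) 0 L1
    rw [Real.rpow_one] at this
    push_cast at this
    nlinarith
  have c6 : 0 ≤ (A : ℝ) * (K + 1) * c ^ 2 := by positivity
  have c7 : 0 ≤ (K : ℝ) * c ^ 2 := by positivity
  have c8 : 0 ≤ 3 * c₃ ^ 2 / ε := by positivity
  refine ⟨c1, by linarith, c4, ?_, ?_, ?_⟩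
  · push_cast
    linarith [sq_nonneg c]
  · rw [mul_div_assoc', div_le_one (by positivity)]
    linarith
  · rw [mul_comm ε, ← div_le_iff₀ hε]
    linarith

variable {M : ℕ} [NeZero M]

theorem sch_of {A : Gauge M} {L ℓ : ℕ} {c c₁ c₂ β : ℝ} {z : Tor M} (hc₁ : 1 ≤ c₁) (hL : 1 ≤ L)
    (hℓ : 1 ≤ ℓ) (hc : c = 2 * c₁ * c₂ * √(L / (L : ℝ) ^ β))
    (h : ∀ w, hsq A ℓ (ball z (2 * ℓ)) w ≤ c₂ ^ 2 * ((ℓ : ℝ) / (L * ℓ : ℕ)) ^ (1 + β) *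
      hsq A (L * ℓ : ℕ) (ball z (2 * (L * ℓ))) w) :
    RN.Shr A ℓ (L * ℓ) z (c * √((ℓ : ℝ) / (L * ℓ : ℕ))) := by
  refine RN.shr_of h ?_
  have l0 : (0 : ℝ) < ℓ := by exact_mod_cast hℓ
  have L0 : (0 : ℝ) < L := by exact_mod_cast hL
  have e1 : (ℓ : ℝ) / (L * ℓ : ℕ) = (L : ℝ)⁻¹ := by
    push_cast
    field_simp
  have T0 : 0 < (L : ℝ) ^ β := by positivity
  rw [e1, Real.rpow_add (by positivity), Real.rpow_one, Real.inv_rpow L0.le, hc, mul_pow, mul_pow,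
    Real.sq_sqrt (by positivity), Real.sq_sqrt (by positivity)]
  generalize (L : ℝ) ^ β = T at T0
  have h1 : 1 ≤ (2 * c₁) ^ 2 := one_le_pow₀ (by linarith)
  calc _ = 1 * (c₂ ^ 2 * ℓ / T) := by
        push_cast
        field_simp
    _ ≤ (2 * c₁) ^ 2 * (c₂ ^ 2 * ℓ / T) := mul_le_mul_of_nonneg_right h1 (by positivity)
    _ = _ := by field_simp

theorem cov_zero {L : ℕ} (hL : 4 ≤ L) (z : Tor M) : ∃ Z : Finset (Tor M), Z.card ≤ L ^ 2 ∧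
    ∀ x, tdist x z ≤ 3 * (L * 8) → ∃ y ∈ Z, tdist x y ≤ 8 * 8 := by
  obtain ⟨Z, hZ, -, hZc⟩ := cover_ball z (3 * (L * 8)) (r := 8 * 8) (by norm_num)
  refine ⟨Z, ?_, hZc⟩
  have : (Z.card : ℝ) ≤ (L : ℝ) ^ 2 := by
    refine hZ.trans (pow_le_pow_left₀ (by positivity) ?_ 2)
    have : (4 : ℝ) ≤ L := by exact_mod_cast hL
    push_cast
    linarith
  exact_mod_cast this

theorem levels {G : Tor M × ℝ × ℝ → Prop} {P : Tor M → Prop} {Tp : Finset (Tor M)}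
    {N n a L ℓ r K : ℕ} {D W β : ℝ} (hG : ∀ y, G y → 0 ≤ y.2.1 * y.2.2) (hℓ : 1 ≤ ℓ) (ha : 1 ≤ a)
    (hD : 0 ≤ D) (hβ : 0 ≤ β) (hW : 0 ≤ W) (hW' : W * (2 ^ β - 1) = ((4 * N + 5) ^ 2 : ℕ))
    (hsep : ∀ p ∈ Tp, ∀ p' ∈ Tp, p ≠ p' → r < tdist p p') (h1 : 2 * (a * 2 ^ K) ≤ L)
    (h2 : L ≤ 4 * (a * 2 ^ K)) (hr : (N + 17) * (L * ℓ) ≤ r)
    (h : ∀ b, a ≤ b → 2 * b ≤ L → Lv G ℓ P Tp N b (D * (2 * b / (L : ℝ)) ^ β) n) (z : Tor M) :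
    Cv G ℓ (fun x => tdist x z ≤ 4 * (L * ℓ) ∧ P x) ((W + 1089) * D)
      (((2 * ((N + 1) * a) + 1) ^ 2 + (4 * N + 5) ^ 2 * n + 1089 * n) * (K + 1)) := by
  have h3 : L * ℓ ≤ 4 * (a * 2 ^ K * ℓ) := (Nat.mul_le_mul_right ℓ h2).trans (le_of_eq (by ring))
  have h4 : 2 * ((N + 17) * (a * 2 ^ K * ℓ)) ≤ r :=
    le_trans ((le_of_eq (by ring)).trans
      (Nat.mul_le_mul_left (N + 17) (Nat.mul_le_mul_right ℓ h1))) hr
  have h5 := total (f := fun k => D * (2 * (a * 2 ^ k : ℕ) / (L : ℝ)) ^ β)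
    (F := fun k => W * (D * (2 * (a * 2 ^ k : ℕ) / (L : ℝ)) ^ β)) hG hℓ ha
    (fun k => by positivity) (fun k => by positivity) (fun k => by
      rw [show 2 * ((a * 2 ^ (k + 1) : ℕ) : ℝ) / L = 2 * (2 * (a * 2 ^ k : ℕ) / (L : ℝ)) by
        push_cast; ring, Real.mul_rpow (by norm_num) (by positivity), ← hW']
      exact le_of_eq (by ring)) hsep
    (fun k hk => h _ (Nat.le_mul_of_pos_right _ (by positivity)) (le_trans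
      (Nat.mul_le_mul_left 2 (Nat.mul_le_mul_left a (Nat.pow_le_pow_right two_pos hk))) h1)) h4 z
  refine h5.mono (fun x hx => ⟨by omega, hx.2⟩) ?_ ?_
  · have h6 : (2 * (a * 2 ^ K : ℕ) / (L : ℝ)) ^ β ≤ 1 := by
      refine Real.rpow_le_one (by positivity) (div_le_one_of_le₀ ?_ (Nat.cast_nonneg _)) hβ
      exact_mod_cast h1
    rw [← add_mul]
    exact mul_le_mul_of_nonneg_left (mul_le_of_le_one_right hD h6) (by positivity)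
  · generalize (2 * ((N + 1) * a) + 1) ^ 2 = u
    generalize (4 * N + 5) ^ 2 * n = v
    generalize 1089 * n = w
    nlinarith [Nat.zero_le (u * K), Nat.zero_le (w * K)]

end A4b

open A4b

theorem bdStmtW_of (hL : LevS) (hS : ShrH) : BdStmtW := by
  intro α hα N
  obtain ⟨c₁, hc₁, n₁, N', hL⟩ := hL α hα N
  obtain ⟨c₂, β, hc₂, hβ, hβ', Q, hS⟩ := hS N
  obtain ⟨c₃, hc₃, hD⟩ := B5d.deep deep_est
  refine ⟨Q + (N' + 17), fun ε hε => ?_⟩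
  have θ0 : 0 < (2 : ℝ) ^ β - 1 := sub_pos.2 (Real.one_lt_rpow one_lt_two hβ)
  obtain ⟨W, hW, hW'⟩ : ∃ W : ℝ, 0 ≤ W ∧ W * (2 ^ β - 1) = ((4 * N' + 5) ^ 2 : ℕ) :=
    ⟨_, by positivity, div_mul_cancel₀ _ θ0.ne'⟩
  obtain ⟨η, hη, hη', hηε⟩ : ∃ η : ℝ, 0 < η ∧ η ≤ 1 ∧
      243 * ((W + 1089) * (2 * n₁ * c₁ * c₂ ^ 2)) * η ≤ ε := by
    have h0 : 0 ≤ 243 * ((W + 1089) * (2 * n₁ * c₁ * c₂ ^ 2)) := by positivity
    generalize 243 * ((W + 1089) * (2 * n₁ * c₁ * c₂ ^ 2)) = X at h0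
    refine ⟨ε / (X + ε), by positivity, div_le_one_of_le₀ (by linarith) (by positivity), ?_⟩
    rw [mul_div_assoc', div_le_iff₀ (by positivity)]
    nlinarith
  obtain ⟨n₂, a₀, hL⟩ := hL η hη hη'
  choose! κf hκ hP using hL
  obtain ⟨A, hA⟩ : ∃ A, A = (2 * ((N' + 1) * (a₀ + 1)) + 1) ^ 2 + (4 * N' + 5) ^ 2 * n₂ +
    1089 * n₂ := ⟨_, rfl⟩
  obtain ⟨L₀, hL₀⟩ := consts hc₁ hc₂ hc₃ hβ (by linarith) hε A
  refine ⟨L₀ + 2 * (a₀ + 1) + 7, fun L hL => ?_⟩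
  obtain ⟨κ, hκ0, hκ⟩ := exists_low hκ L
  refine ⟨κ, hκ0, fun M _ R Tp B r J hI hB hM hJ hr => ?_⟩
  have L1 : 1 ≤ L := by omega
  obtain ⟨K, k1, k2, k3⟩ := exists_K (a := a₀ + 1) (L := L) (by omega) (by omega)
  obtain ⟨c, hc⟩ : ∃ c, c = 2 * c₁ * c₂ * √(L / (L : ℝ) ^ β) := ⟨_, rfl⟩
  obtain ⟨c1, c2, c4, c3, c5, c6⟩ := hL₀ L (by omega) K k3 c hc
  refine ⟨c, c1, c2, fun j hj => ?_⟩
  have hr' : (Q + (N' + 17)) * (L * sc L j) ≤ r := by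
    refine le_trans (Nat.mul_le_mul_left _ ?_) hr
    unfold sc
    calc L * (8 * L ^ j) = 8 * L ^ (j + 1) := by ring
      _ ≤ _ := Nat.mul_le_mul_left 8 (Nat.pow_le_pow_right L1 hj)
  rw [add_mul] at hr'
  have l1 : 1 ≤ sc L j := Nat.mul_pos (by norm_num) (Nat.pow_pos L1)
  have sch : ∀ z, (∃ f, tdist f z ≤ (L * sc L j : ℕ) ∧ |flux (R.pw * B) f| ≠ 1) →
      RN.Shr (R.pw * B) (sc L j) (L * sc L j) z (c * √((sc L j : ℝ) / (L * sc L j : ℕ))) := by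
    rintro z ⟨f, hf, hf'⟩
    obtain ⟨f', h1, h2⟩ := out_of_flux hB.sign hf'
    have := tdist_triangle f' f z
    exact sch_of hc₁ L1 l1 hc (hS M R B r hI.toRgh hB hM _ _ l1 (Nat.le_mul_of_pos_left _ L1)
      (by omega) z ⟨f', h1, by omega⟩)
  rcases Nat.eq_zero_or_pos j with rfl | hj0
  · refine ⟨1 / 8, 0, L ^ 2, by norm_num, by norm_num, le_rfl, ?_, sch, fun z => ?_⟩
    · rw [if_pos rfl]
      exact loss_zero L1 c4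
    · obtain ⟨Z, z1, z2⟩ := cov_zero (show 4 ≤ L by omega) z
      exact ⟨∅, Z, z1, by simp, by simp, fun x hx _ => Or.inr (Or.inr (z2 x hx))⟩
  · have l2 : 4 * L ≤ 4 * L ^ j := Nat.mul_le_mul_left 4 (Nat.le_self_pow hj0.ne' L)
    have l3 : sc L j = 2 * (4 * L ^ j) := by
      unfold sc
      ring
    rw [l3] at hr' sch ⊢
    generalize 4 * L ^ j = ℓ at hr' sch l2
    have l4 : 17 * (2 * ℓ) ≤ (N' + 17) * (L * (2 * ℓ)) :=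
      Nat.mul_le_mul (by omega) (Nat.le_mul_of_pos_left _ L1)
    refine ⟨c₃ / (L : ℝ) ^ 2, (W + 1089) * (2 * n₁ * c₁ * c₂ ^ 2 * η * L), A * (K + 1),
      by positivity, c5, by positivity, ?_, sch, fun z => ?_⟩
    · rw [if_neg hj0.ne']
      exact loss_pos L1 c6
        (by linarith [mul_le_mul_of_nonneg_right hηε (Nat.cast_nonneg (α := ℝ) L)]) c3
    · refine cov_of (G := Gd (R.pw * B) (2 * ℓ) (L * (2 * ℓ)) c) hB.sign (by omega) (by omega)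
        (by omega) (fun x => hD M R B r hB x L _ (by omega) (by omega)) ?_
      rw [hA]
      refine levels Gd.nonneg (by omega) (by omega) (by positivity) hβ.le hW hW' hI.sep k1 k2
        (by omega) (fun b b1 b2 => ?_) z
      have b3 : b * (2 * ℓ) ≤ L * ℓ := (le_of_eq (by ring)).trans (Nat.mul_le_mul_right ℓ b2)
      have b4 : L * ℓ ≤ L * (2 * ℓ) := Nat.mul_le_mul_left _ (by omega)
      have b5 := Nat.mul_le_mul (show N' ≤ N' + 17 by omega) (b3.trans b4)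
      have b6 := Nat.mul_le_mul_left Q b4
      exact level hc₁ hc₂ (by linarith) hη hη' (by omega) b2 (by omega) hc
        (hP b (by omega) M R Tp B r _ (hI.mono (hκ b (by omega) (by omega)) le_rfl) hB hM
          (by omega) (by omega))
        (hS M R B r hI.toRgh hB hM _ _ (Nat.mul_pos (by omega) (by omega)) b3 (by omega))

end Vale.Agent.P144Z
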