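import Vale.Agent.P144E.Basic
import Vale.Agent.P144Z.G.Cover

/-!
Weighted coverings: dyadic shells around a tip.
-/

namespace Vale.Agent.P144Z

open Finset

namespace A4b

variable {M : ℕ}

/-- The set `S` is covered by the squares of radius `ℓ` around good weighted points of total loss
at most `s` and around at most `n` further points. -/
def Cv (G : Tor M × ℝ × ℝ → Prop) (ℓ : ℕ) (S : Tor M → Prop) (s : ℝ) (n : ℕ) : Prop :=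
  ∃ (Z₁ : Finset (Tor M × ℝ × ℝ)) (Z₂ : Finset (Tor M)), Z₂.card ≤ n ∧ (∀ y ∈ Z₁, G y) ∧
    ∑ y ∈ Z₁, y.2.1 * y.2.2 ≤ s ∧
    ∀ x, S x → (∃ y ∈ Z₁, tdist x y.1 ≤ ℓ) ∨ ∃ y ∈ Z₂, tdist x y ≤ ℓ

variable {G : Tor M × ℝ × ℝ → Prop} {ℓ : ℕ}

theorem Cv.mono {S S' : Tor M → Prop} {s s' : ℝ} {n n' : ℕ} (h : Cv G ℓ S s n)
    (hS : ∀ x, S' x → S x) (hs : s ≤ s') (hn : n ≤ n') : Cv G ℓ S' s' n' := by
  obtain ⟨Z₁, Z₂, h1, h2, h3, h4⟩ := h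
  exact ⟨Z₁, Z₂, h1.trans hn, h2, h3.trans hs, fun x hx => h4 x (hS x hx)⟩

theorem Cv.union (hG : ∀ y, G y → 0 ≤ y.2.1 * y.2.2) {S S' : Tor M → Prop} {s s' : ℝ}
    {n n' : ℕ} (h : Cv G ℓ S s n) (h' : Cv G ℓ S' s' n') :
    Cv G ℓ (fun x => S x ∨ S' x) (s + s') (n + n') := by
  classical
  obtain ⟨Z₁, Z₂, h1, h2, h3, h4⟩ := h
  obtain ⟨Y₁, Y₂, k1, k2, k3, k4⟩ := h'
  refine ⟨Z₁ ∪ Y₁, Z₂ ∪ Y₂, (card_union_le _ _).trans (Nat.add_le_add h1 k1), fun y hy => ?_, ?_,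
    fun x hx => ?_⟩
  · exact (mem_union.1 hy).elim (h2 y) (k2 y)
  · have a1 := sum_union_inter (s₁ := Z₁) (s₂ := Y₁) (f := fun y => y.2.1 * y.2.2)
    have a2 : 0 ≤ ∑ y ∈ Z₁ ∩ Y₁, y.2.1 * y.2.2 :=
      sum_nonneg fun y hy => hG y (h2 y (mem_inter.1 hy).1)
    linarith
  · rcases hx with hx | hx
    · rcases h4 x hx with ⟨y, a, b⟩ | ⟨y, a, b⟩
      · exact Or.inl ⟨y, mem_union_left _ a, b⟩
      · exact Or.inr ⟨y, mem_union_left _ a, b⟩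
    · rcases k4 x hx with ⟨y, a, b⟩ | ⟨y, a, b⟩
      · exact Or.inl ⟨y, mem_union_right _ a, b⟩
      · exact Or.inr ⟨y, mem_union_right _ a, b⟩

theorem Cv.fin (hG : ∀ y, G y → 0 ≤ y.2.1 * y.2.2) {S : Tor M → Tor M → Prop} {s : ℝ} {n : ℕ}
    (Z : Finset (Tor M)) (h : ∀ i ∈ Z, Cv G ℓ (S i) s n) :
    Cv G ℓ (fun x => ∃ i ∈ Z, S i x) (Z.card * s) (Z.card * n) := by
  induction Z using Finset.induction_on with
  | empty => exact ⟨∅, ∅, by simp, by simp, by simp, by simp⟩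
  | insert i Z hi ih =>
    refine ((h i (mem_insert_self _ _)).union hG
      (ih fun j hj => h j (mem_insert_of_mem hj))).mono (fun x ⟨j, hj, hx⟩ => ?_) ?_ ?_
    · rcases mem_insert.1 hj with rfl | hj
      · exact Or.inl hx
      · exact Or.inr ⟨j, hj, hx⟩
    · rw [card_insert_of_notMem hi]
      push_cast
      exact le_of_eq (by ring)
    · rw [card_insert_of_notMem hi]
      exact le_of_eq (by ring)

/-- The level `a`: away from the tips the squares of radius `a ℓ` are covered. -/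
def Lv (G : Tor M × ℝ × ℝ → Prop) (ℓ : ℕ) (P : Tor M → Prop) (Tp : Finset (Tor M)) (N a : ℕ)
    (s : ℝ) (n : ℕ) : Prop :=
  ∀ z, (∀ p ∈ Tp, N * (a * ℓ) ≤ tdist z p) → Cv G ℓ (fun x => tdist x z ≤ a * ℓ ∧ P x) s n

variable [NeZero M]

theorem cover_mul (c : Tor M) (m : ℕ) {r : ℕ} (hr : 1 ≤ r) :
    ∃ Z : Finset (Tor M), Z.card ≤ (2 * m + 1) ^ 2 ∧
      ∀ x, tdist x c ≤ m * r → ∃ z ∈ Z, tdist x z ≤ r := by
  obtain ⟨Z, h1, -, h2⟩ := cover_ball c (m * r) hr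
  refine ⟨Z, ?_, h2⟩
  have r0 : (r : ℝ) ≠ 0 := by exact_mod_cast (show r ≠ 0 by omega)
  have e : (2 * ((m * r : ℕ) : ℝ) / r + 1) ^ 2 = (((2 * m + 1) ^ 2 : ℕ) : ℝ) := by
    push_cast
    field_simp
  rw [e] at h1
  exact_mod_cast h1

theorem cv_ball (hℓ : 1 ≤ ℓ) (p : Tor M) (m : ℕ) :
    Cv G ℓ (fun x => tdist x p ≤ m * ℓ) 0 ((2 * m + 1) ^ 2) := by
  obtain ⟨Z, h1, h2⟩ := cover_mul p m hℓ
  exact ⟨∅, Z, h1, by simp, by simp, fun x hx => Or.inr (h2 x hx)⟩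

variable {P : Tor M → Prop} {Tp : Finset (Tor M)} {N n : ℕ}

theorem shell (hG : ∀ y, G y → 0 ≤ y.2.1 * y.2.2) {a : ℕ} {s : ℝ} (ha : 1 ≤ a * ℓ) (hs : 0 ≤ s)
    (h : Lv G ℓ P Tp N a s n) (z : Tor M) (m : ℕ) :
    Cv G ℓ (fun x => tdist x z ≤ m * (a * ℓ) ∧ P x ∧ ∀ p ∈ Tp, (N + 1) * (a * ℓ) ≤ tdist x p)
      (((2 * m + 1) ^ 2 : ℕ) * s) ((2 * m + 1) ^ 2 * n) := by
  obtain ⟨Z, h1, h2⟩ := cover_mul z m ha
  have h3 := (card_filter_le Z fun i => ∀ p ∈ Tp, N * (a * ℓ) ≤ tdist i p).trans h1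
  refine (Cv.fin hG (S := fun i x => tdist x i ≤ a * ℓ ∧ P x)
    (Z.filter fun i => ∀ p ∈ Tp, N * (a * ℓ) ≤ tdist i p)
    fun i hi => h i (mem_filter.1 hi).2).mono (fun x ⟨x1, x2, x3⟩ => ?_)
    (mul_le_mul_of_nonneg_right (by exact_mod_cast h3) hs) (Nat.mul_le_mul_right _ h3)
  obtain ⟨i, hi, hx⟩ := h2 x x1
  refine ⟨i, mem_filter.2 ⟨hi, fun p hp => ?_⟩, hx, x2⟩
  have := x3 p hp
  have := tdist_triangle x i p
  rw [add_mul, one_mul] at *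
  omega

theorem tip (hG : ∀ y, G y → 0 ≤ y.2.1 * y.2.2) (hℓ : 1 ≤ ℓ) {a r : ℕ} (ha : 1 ≤ a)
    {f F : ℕ → ℝ} (hf : ∀ k, 0 ≤ f k) (h0 : 0 ≤ F 0)
    (hF : ∀ k, F k + ((4 * N + 5) ^ 2 : ℕ) * f k ≤ F (k + 1))
    (hsep : ∀ p ∈ Tp, ∀ p' ∈ Tp, p ≠ p' → r < tdist p p') {p : Tor M} (hp : p ∈ Tp) :
    ∀ K, (∀ k < K, Lv G ℓ P Tp N (a * 2 ^ k) (f k) n) → 2 * ((N + 1) * (a * 2 ^ K * ℓ)) ≤ r →
      Cv G ℓ (fun x => tdist x p ≤ (N + 1) * (a * 2 ^ K * ℓ) ∧ P x) (F K)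
        ((2 * ((N + 1) * a) + 1) ^ 2 + K * ((4 * N + 5) ^ 2 * n)) := by
  intro K
  induction K with
  | zero =>
    intro _ _
    refine (cv_ball hℓ p ((N + 1) * a)).mono (fun x hx => hx.1.trans (le_of_eq (by ring))) h0
      (by omega)
  | succ K ih =>
    intro h hr
    have e : (N + 1) * (a * 2 ^ (K + 1) * ℓ) = 2 * ((N + 1) * (a * 2 ^ K * ℓ)) := by ring
    have e' : 2 * (N + 1) * (a * 2 ^ K * ℓ) = 2 * ((N + 1) * (a * 2 ^ K * ℓ)) := by ring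
    have e2 : 2 * (2 * (N + 1)) + 1 = 4 * N + 5 := by ring
    rw [e] at hr ⊢
    have h1 := shell hG (Nat.mul_pos (Nat.mul_pos ha (by positivity)) hℓ) (hf K)
      (h K (by omega)) p (2 * (N + 1))
    rw [e', e2] at h1
    refine ((ih (fun k hk => h k (by omega)) (by omega)).union hG h1).mono (fun x ⟨x1, x2⟩ => ?_)
      (hF K) (le_of_eq (by ring))
    by_cases h2 : tdist x p ≤ (N + 1) * (a * 2 ^ K * ℓ)
    · exact Or.inl ⟨h2, x2⟩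
    · refine Or.inr ⟨x1, x2, fun p' hp' => ?_⟩
      by_cases h3 : p = p'
      · rw [← h3]
        omega
      · have := hsep p hp p' hp' h3
        have := tdist_triangle p x p'
        rw [tdist_comm p x] at this
        omega

theorem total (hG : ∀ y, G y → 0 ≤ y.2.1 * y.2.2) (hℓ : 1 ≤ ℓ) {a r K : ℕ} (ha : 1 ≤ a)
    {f F : ℕ → ℝ} (hf : ∀ k, 0 ≤ f k) (h0 : ∀ k, 0 ≤ F k)
    (hF : ∀ k, F k + ((4 * N + 5) ^ 2 : ℕ) * f k ≤ F (k + 1))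
    (hsep : ∀ p ∈ Tp, ∀ p' ∈ Tp, p ≠ p' → r < tdist p p')
    (h : ∀ k ≤ K, Lv G ℓ P Tp N (a * 2 ^ k) (f k) n)
    (hr : 2 * ((N + 17) * (a * 2 ^ K * ℓ)) ≤ r) (z : Tor M) :
    Cv G ℓ (fun x => tdist x z ≤ 16 * (a * 2 ^ K * ℓ) ∧ P x) (F K + 1089 * f K)
      ((2 * ((N + 1) * a) + 1) ^ 2 + K * ((4 * N + 5) ^ 2 * n) + 1089 * n) := by
  have h1 := shell hG (Nat.mul_pos (Nat.mul_pos ha (by positivity)) hℓ) (hf K) (h K le_rfl) z 16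
  have e : (N + 17) * (a * 2 ^ K * ℓ) = (N + 1) * (a * 2 ^ K * ℓ) + 16 * (a * 2 ^ K * ℓ) := by
    ring
  rw [show (2 * 16 + 1) ^ 2 = 1089 from rfl, Nat.cast_ofNat] at h1
  rw [e] at hr
  by_cases h2 : ∃ p ∈ Tp, tdist p z ≤ (N + 1) * (a * 2 ^ K * ℓ) + 16 * (a * 2 ^ K * ℓ)
  · obtain ⟨p, hp, h2⟩ := h2
    refine ((tip hG hℓ ha hf (h0 0) hF hsep hp K (fun k hk => h k hk.le) (by omega)).union hG
      h1).mono (fun x ⟨x1, x2⟩ => ?_) le_rfl le_rfl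
    by_cases h3 : tdist x p ≤ (N + 1) * (a * 2 ^ K * ℓ)
    · exact Or.inl ⟨h3, x2⟩
    · refine Or.inr ⟨x1, x2, fun p' hp' => ?_⟩
      by_cases h4 : p = p'
      · rw [← h4]
        omega
      · have := hsep p hp p' hp' h4
        have := tdist_triangle p z p'
        have := tdist_triangle z x p'
        rw [tdist_comm z x] at this
        omega
  · push Not at h2
    refine h1.mono (fun x ⟨x1, x2⟩ => ⟨x1, x2, fun p hp => ?_⟩) (by linarith [h0 K]) (by omega)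
    have := h2 p hp
    have := tdist_triangle p x z
    rw [tdist_comm p x] at this
    omega

end A4b

end Vale.Agent.P144Z
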