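import Vale.Agent.P144E.An4b.Cv
import Vale.Agent.P144D.B.BdCore
import Vale.Agent.P144D.B.Ext
import Vale.Agent.P144D.Geo.A

/-!
One level: the points of rank one are transferred to the large scale.
-/

namespace Vale.Agent.P144Z

open Finset

namespace A4b

theorem num {C β : ℝ} (hC : 0 ≤ C) (hβ : 0 < β) :
    ∃ L₀ : ℕ, ∀ L ≥ L₀, ∀ K : ℕ, 2 ^ K ≤ L → C * (K + 1) ≤ (L : ℝ) ^ β := by
  have h := Filter.Tendsto.eventually_ge_atTop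
    ((tendsto_rpow_atTop (half_pos hβ)).comp tendsto_natCast_atTop_atTop) (C * (4 / β + 1) + 1)
  obtain ⟨L₀, h⟩ := Filter.eventually_atTop.1 h
  refine ⟨L₀, fun L hL K hK => ?_⟩
  have h1 : C * (4 / β + 1) + 1 ≤ (L : ℝ) ^ (β / 2) := h L hL
  have h2 : (2 : ℝ) ^ K ≤ L := by exact_mod_cast hK
  have L0 : (0 : ℝ) < L := lt_of_lt_of_le (by positivity) h2
  have h3 := Real.log_le_log (by positivity) h2
  rw [Real.log_pow] at h3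
  have h4 := Real.log_le_rpow_div L0.le (half_pos hβ)
  have h5 := Real.log_two_gt_d9
  have h6 : (L : ℝ) ^ β = (L : ℝ) ^ (β / 2) * (L : ℝ) ^ (β / 2) := by
    rw [← Real.rpow_add L0, add_halves]
  generalize (L : ℝ) ^ (β / 2) = t at h1 h4 h6
  have h7 : 0 ≤ C * (4 / β + 1) := by positivity
  have h8 : t / (β / 2) = 4 / β * t / 2 := by
    field_simp
    norm_num
  have h9 : (K : ℝ) + 1 ≤ (4 / β + 1) * t := by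
    have : (0 : ℝ) ≤ K := Nat.cast_nonneg _
    nlinarith
  rw [h6]
  calc _ ≤ C * ((4 / β + 1) * t) := mul_le_mul_of_nonneg_left h9 hC
    _ = C * (4 / β + 1) * t := by ring
    _ ≤ _ := mul_le_mul_of_nonneg_right (by linarith) (by linarith)

theorem exists_low {f : ℕ → ℝ} {a₀ : ℕ} (hf : ∀ a ≥ a₀, 0 < f a) (L : ℕ) :
    ∃ κ > (0 : ℝ), ∀ a ≥ a₀, a ≤ L → κ ≤ f a := by
  induction L with
  | zero =>
    by_cases h : a₀ = 0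
    · exact ⟨f 0, hf 0 h.le, fun a _ h => by rw [Nat.le_zero.1 h]⟩
    · exact ⟨1, one_pos, fun a _ _ => by omega⟩
  | succ L ih =>
    obtain ⟨κ, hκ, ih⟩ := ih
    by_cases h : a₀ ≤ L + 1
    · refine ⟨min κ (f (L + 1)), lt_min hκ (hf _ h), fun a h1 h2 => ?_⟩
      rcases h2.eq_or_lt with rfl | h2
      · exact min_le_right _ _
      · exact (min_le_left _ _).trans (ih a h1 (by omega))
    · exact ⟨1, one_pos, fun a _ _ => by omega⟩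

variable {M : ℕ} [NeZero M]

theorem rk_up {A : Gauge M} {ℓ ℓ₁ ℓ' r : ℕ} {c η g : ℝ} {y : Tor M} (h : RkA A ℓ ℓ₁ r c η y)
    (h1 : 1 ≤ ℓ₁) (hg : ∀ w, hsq A ℓ₁ (ball y ℓ₁) w * (ℓ' : ℝ) ^ 2 ≤
      g ^ 2 * (ℓ₁ : ℝ) ^ 2 * hsq A ℓ' (ball y ℓ') w) : RkA A ℓ ℓ' r (c * g) (η * g) y := by
  obtain ⟨u, hu⟩ := h
  have l0 : (0 : ℝ) < (ℓ₁ : ℝ) ^ 2 := by
    have : (0 : ℝ) < ℓ₁ := by exact_mod_cast h1
    positivity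
  have key : ∀ (X d : ℝ) w, X * (ℓ₁ : ℝ) ^ 2 ≤ d ^ 2 * (ℓ : ℝ) ^ 2 * hsq A ℓ₁ (ball y ℓ₁) w →
      X * (ℓ' : ℝ) ^ 2 ≤ (d * g) ^ 2 * (ℓ : ℝ) ^ 2 * hsq A ℓ' (ball y ℓ') w := fun X d w hX => by
    refine le_of_mul_le_mul_right ?_ l0
    calc _ = X * (ℓ₁ : ℝ) ^ 2 * (ℓ' : ℝ) ^ 2 := by ring
      _ ≤ _ := mul_le_mul_of_nonneg_right hX (sq_nonneg _)
      _ = d ^ 2 * (ℓ : ℝ) ^ 2 * (hsq A ℓ₁ (ball y ℓ₁) w * (ℓ' : ℝ) ^ 2) := by ring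
      _ ≤ _ := mul_le_mul_of_nonneg_left (hg w) (by positivity)
      _ = _ := by ring
  exact ⟨u, fun w => ⟨key _ _ w (hu w).1, (hu w).2.imp fun _ => key _ _ w⟩⟩

/-- The good weighted points. -/
def Gd (A : Gauge M) (ℓ ℓ' : ℕ) (c : ℝ) (y : Tor M × ℝ × ℝ) : Prop :=
  0 < y.2.2 ∧ y.2.2 ≤ y.2.1 ∧ y.2.1 ≤ c ∧ RkA A ℓ ℓ' ((8 + 3) * ℓ) y.2.1 y.2.2 y.1

theorem Gd.nonneg {A : Gauge M} {ℓ ℓ' : ℕ} {c : ℝ} (y : Tor M × ℝ × ℝ) (h : Gd A ℓ ℓ' c y) :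
    0 ≤ y.2.1 * y.2.2 := mul_nonneg (h.1.le.trans h.2.1) h.1.le

theorem level {A : Gauge M} {I Tp : Finset (Tor M)} {c c₁ c₂ β η : ℝ} {n₁ n₂ N a L ℓ₀ : ℕ}
    (hc₁ : 1 ≤ c₁) (hc₂ : 1 ≤ c₂) (hβ : β ≤ 1) (hη : 0 < η) (hη' : η ≤ 1) (ha : 1 ≤ a)
    (haL : 2 * a ≤ L) (hℓ : 1 ≤ ℓ₀) (hc : c = 2 * c₁ * c₂ * √(L / (L : ℝ) ^ β))
    (h1 : ∀ z, (∀ p ∈ Tp, N * (a * (2 * ℓ₀)) ≤ tdist z p) → ∃ Z₁ Z₂ : Finset (Tor M),
      Z₁.card ≤ n₁ * a ∧ Z₂.card ≤ n₂ ∧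
      (∀ b ∈ Z₁, NearB I 1 b ∧ RkA A (2 * ℓ₀) (a * (2 * ℓ₀)) (11 * (2 * ℓ₀)) c₁ η b) ∧
      ∀ x, tdist x z ≤ a * (2 * ℓ₀) → NearB I 1 x → ∃ y ∈ Z₁ ∪ Z₂, tdist x y ≤ 2 * ℓ₀)
    (h2 : ∀ z, (∃ f, f ∉ I ∧ tdist f z ≤ L * ℓ₀ + 1) → ∀ w,
      hsq A (a * (2 * ℓ₀) : ℕ) (ball z (2 * (a * (2 * ℓ₀)))) w ≤
        c₂ ^ 2 * (((a * (2 * ℓ₀) : ℕ) : ℝ) / (L * ℓ₀ : ℕ)) ^ (1 + β) *
          hsq A (L * ℓ₀ : ℕ) (ball z (2 * (L * ℓ₀))) w) :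
    Lv (Gd A (2 * ℓ₀) (L * (2 * ℓ₀)) c) (2 * ℓ₀) (NearB I 1) Tp N a
      (2 * n₁ * c₁ * c₂ ^ 2 * η * L * (2 * a / (L : ℝ)) ^ β) n₂ := by
  intro z hz
  obtain ⟨Z₁, Z₂, z1, z2, z3, z4⟩ := h1 z hz
  have a0 : (1 : ℝ) ≤ a := by exact_mod_cast ha
  have l0 : (0 : ℝ) < ℓ₀ := by exact_mod_cast hℓ
  have L0 : (0 : ℝ) < L := by exact_mod_cast (show 0 < L by omega)
  have e1 : ((a * (2 * ℓ₀) : ℕ) : ℝ) / (L * ℓ₀ : ℕ) = 2 * a / L := by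
    push_cast
    field_simp
  rw [e1, Real.rpow_add (by positivity), Real.rpow_one] at h2
  have u0 : 0 < (2 * a / (L : ℝ)) ^ β := by positivity
  have T0 : 0 < (L : ℝ) ^ β := by positivity
  have u1 : (2 * a / (L : ℝ)) ^ β * (L : ℝ) ^ β ≤ 2 * a := by
    rw [← Real.mul_rpow (by positivity) L0.le, div_mul_cancel₀ _ L0.ne']
    exact Real.rpow_le_self_of_one_le (by linarith) hβ
  generalize (2 * a / (L : ℝ)) ^ β = u at h2 u0 u1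
  generalize (L : ℝ) ^ β = T at hc T0 u1
  obtain ⟨g, g0, g1⟩ : ∃ g : ℝ, 0 < g ∧ g ^ 2 = c₂ ^ 2 * (2 * u * L / a) :=
    ⟨c₂ * √(2 * u * L / a), by positivity, by rw [mul_pow, Real.sq_sqrt (by positivity)]⟩
  have g2 : c₁ * g ≤ c := by
    rw [hc, mul_comm 2 c₁, mul_assoc, mul_assoc]
    refine mul_le_mul_of_nonneg_left (abs_le_of_sq_le_sq' ?_ (by positivity)).2 (by linarith)
    rw [g1, mul_pow, mul_pow, Real.sq_sqrt (by positivity), mul_left_comm]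
    refine mul_le_mul_of_nonneg_left ?_ (sq_nonneg _)
    rw [div_le_iff₀ (by positivity), mul_div_assoc', div_mul_eq_mul_div, le_div_iff₀ T0]
    nlinarith
  refine ⟨Z₁ ×ˢ {(c₁ * g, η * g)}, Z₂, z2, fun y hy => ?_, ?_, fun x hx => ?_⟩
  · obtain ⟨b, y⟩ := y
    obtain ⟨hb, hy⟩ := mem_product.1 hy
    obtain rfl := mem_singleton.1 hy
    obtain ⟨⟨-, f, hf, hf'⟩, hr⟩ := z3 b hb
    refine ⟨by positivity, mul_le_mul_of_nonneg_right (by linarith) g0.le, g2,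
      rk_up hr (Nat.mul_pos ha (by omega)) fun w => ?_⟩
    have k1 := RN.hsq_mono A (Nat.cast_nonneg (a * (2 * ℓ₀))) le_rfl
      (E3.ball_mono b (show a * (2 * ℓ₀) ≤ 2 * (a * (2 * ℓ₀)) by omega)) w
    have k2 := RN.hsq_mono A (Nat.cast_nonneg (L * ℓ₀)) (ρ' := (L * (2 * ℓ₀) : ℕ))
      (Nat.cast_le.2 (Nat.mul_le_mul_left _ (by omega)))
      (E3.ball_mono b (show 2 * (L * ℓ₀) ≤ L * (2 * ℓ₀) from le_of_eq (by ring))) w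
    have k3 := (k1.trans (h2 b ⟨f, hf, by omega⟩ w)).trans
      (mul_le_mul_of_nonneg_left k2 (by positivity))
    refine (mul_le_mul_of_nonneg_right k3 (sq_nonneg _)).trans (le_of_eq ?_)
    rw [g1]
    generalize hsq A _ _ w = H
    push_cast
    field_simp
  · have k1 : (Z₁.card : ℝ) ≤ n₁ * a := by exact_mod_cast z1
    simp only [sum_product, sum_singleton, sum_const, nsmul_eq_mul]
    refine (mul_le_mul_of_nonneg_right k1 (by positivity)).trans (le_of_eq ?_)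
    calc _ = n₁ * a * c₁ * η * g ^ 2 := by ring
      _ = _ := by
        rw [g1]
        field_simp
  · obtain ⟨y, hy, hxy⟩ := z4 x hx.1 hx.2
    rcases mem_union.1 hy with hy | hy
    · exact Or.inl ⟨(y, c₁ * g, η * g), mem_product.2 ⟨hy, mem_singleton_self _⟩, hxy⟩
    · exact Or.inr ⟨y, hy, hxy⟩

theorem cov_of {R : Reg M} {B : Gauge M} {ℓ L n : ℕ} {G : Tor M × ℝ × ℝ → Prop} {κ s : ℝ}
    (hB : IsSign B) (hM : 12 * ℓ + 3 ≤ M) (hL : 7 ≤ L) (hℓ : 2 ≤ ℓ)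
    (hD : ∀ x, (∀ f, tdist f x ≤ 2 * ℓ + 6 → f ∉ R.In) → RN.Shr (R.pw * B) ℓ (L * ℓ) x κ)
    {z : Tor M} (h : Cv G ℓ (fun x => tdist x z ≤ 4 * (L * ℓ) ∧ NearB R.In 1 x) s n) :
    ∃ (Z₁ : Finset (Tor M × ℝ × ℝ)) (Z₂ : Finset (Tor M)), Z₂.card ≤ n ∧ (∀ y ∈ Z₁, G y) ∧
      ∑ y ∈ Z₁, y.2.1 * y.2.2 ≤ s ∧ ∀ x, tdist x z ≤ 3 * (L * ℓ) →
        (∃ f, tdist f x ≤ 6 * ℓ ∧ |flux (R.pw * B) f| ≠ 1) →
        RN.Shr (R.pw * B) ℓ (L * ℓ) x κ ∨ (∃ y ∈ Z₁, tdist x y.1 ≤ 8 * ℓ) ∨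
          ∃ y ∈ Z₂, tdist x y ≤ 8 * ℓ := by
  obtain ⟨Z₁, Z₂, z1, z2, z3, z4⟩ := h
  refine ⟨Z₁, Z₂, z1, z2, z3, fun x hx ⟨f, hf, hf'⟩ => ?_⟩
  have hl7 : 7 * ℓ ≤ L * ℓ := Nat.mul_le_mul_right _ hL
  obtain ⟨f', ho, hd⟩ := out_of_flux hB hf'
  have t1 := tdist_triangle f' f x
  by_cases hin : ∀ g, tdist g x ≤ 2 * ℓ + 6 → g ∉ R.In
  · exact Or.inl (hD x hin)
  · push Not at hin
    obtain ⟨g, hg, hgI⟩ := hin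
    obtain ⟨x', x1, -, x2⟩ := exists_nearB (z := x) (ρ := 6 * ℓ + 1) (by omega) hgI ho (by omega)
      (by omega)
    have t2 := tdist_triangle x' x z
    rcases z4 x' ⟨by omega, x2⟩ with ⟨y, hy, hxy⟩ | ⟨y, hy, hxy⟩
    · have t3 := tdist_triangle x x' y.1
      rw [tdist_comm x x'] at t3
      exact Or.inr (Or.inl ⟨y, hy, by omega⟩)
    · have t3 := tdist_triangle x x' y
      rw [tdist_comm x x'] at t3
      exact Or.inr (Or.inr ⟨y, hy, by omega⟩)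

end A4b

end Vale.Agent.P144Z
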